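import Vale.Agent.P159.Bdl.B9

open Filter Topology Vale.Agent.P159

namespace Vale.Agent.Results.P159.UniversalJump

/-- The universal jump of the stiffness of the square-lattice XY model, power law upper bounds
for the two-point function with the exponent given by the stiffness of a finite block, and lower
bounds for the susceptibility and the correlation length below the critical point. -/
theorem result :
    (∀ b : ℝ, 0 < b →
      (∀ x : ℤ × ℤ, Tendsto (fun R : ℕ => corr R b x) atTop (𝓝 (corrInf b x))) ∧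
      Tendsto (fun r : ℕ => -(1 / (r : ℝ)) * Real.log (corrInf b ((r : ℤ), 0))) atTop
        (𝓝 (mass b)) ∧ 0 ≤ mass b) ∧
    (∀ b : ℝ, 0 < b →
      (mass b = 0 → 2 / Real.pi ≤ helicity b ∧ ∀ l : ℕ, 1 ≤ l → 2 / Real.pi ≤ stiff l b) ∧
      (0 < mass b → helicity b = 0 ∧ ∃ C : ℝ, ∀ l : ℕ, 1 ≤ l → stiff l b ≤ C / l)) ∧
    (0 < bCrit → mass bCrit = 0 ∧ 2 / Real.pi ≤ helicity bCrit ∧
      ∀ b : ℝ, 0 < b → b < bCrit → 0 < mass b ∧ helicity b = 0) ∧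
    (∀ b : ℝ, 0 < b → stiff 1 b = b ∧ (∀ l : ℕ, 2 ≤ l → stiff l b < b) ∧
      ∀ l n : ℕ, 1 ≤ l → 1 ≤ n → 0 ≤ stiff (l * n) b ∧ stiff (l * n) b ≤ stiff l b) ∧
    (∀ b : ℝ, 0 < b → ∀ l : ℕ, 1 ≤ l → ∃ K : ℝ, ∀ r : ℕ, 1 ≤ r →
      corrInf b ((r : ℤ), 0) ≤ K * (r : ℝ) ^ (-(1 / (2 * Real.pi * stiff l b)))) ∧
    (∀ l : ℕ, 1 ≤ l → ∀ ν : ℝ, ν < 1 / (2 - 1 / (2 * Real.pi * stiff l bCrit)) →
      ∃ c δ : ℝ, 0 < c ∧ 0 < δ ∧ ∀ b : ℝ, 0 < b → bCrit - δ < b → b < bCrit →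
        c * (bCrit - b) ^ (-ν) ≤ corrLength b) ∧
    (∀ b : ℝ, 0 < b → b < bCrit →
      Summable (corrInf b) ∧
      1 / (2 * (bCrit - b)) ≤ ∑' x : ℤ × ℤ, corrInf b x ∧
      1 / 4 * Real.sqrt (1 / (bCrit - b) - 2) ≤ corrLength b) := by
  refine ⟨fun b hb => ⟨fun x => ?_, XY.tendsto_mass hb, XY.mass_nonneg hb⟩,
    fun b hb => ⟨fun hm => ⟨UJ.helicity_massless hb hm, fun l hl => UJ.jump hb hm hl⟩,
      fun hm => ⟨UJ.helicity_massive hb hm, stiff_le_of_mass_pos hb hm⟩⟩,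
    fun hbc => ⟨XY.mass_bCrit hbc, UJ.helicity_massless hbc (XY.mass_bCrit hbc),
      fun b hb hlt => ⟨XY.mass_pos_of_lt_bCrit hb hlt,
        UJ.helicity_massive hb (XY.mass_pos_of_lt_bCrit hb hlt)⟩⟩,
    fun b hb => ⟨stiff_one b, fun l hl => stiff_lt hl hb, fun l n hl hn =>
      ⟨UJ.stiff_nonneg' hb.le (Nat.mul_pos hl hn), UJ.stiff_mono hb.le hl hn⟩⟩,
    fun b hb l hl => ?_,
    fun l hl ν hν => xi_stiff hl hν, fun b hb hbc => ?_⟩
  · rw [XY.corrInf_eq hb.le]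
    exact XY.tendsto_corr hb.le x
  · obtain ⟨K, _, h⟩ := decay_stiff hb hl
    refine ⟨K, fun r hr => ?_⟩
    rw [XY.corrInf_eq hb.le]
    have hx : (((r : ℤ), 0) : ℤ × ℤ) ≠ 0 := by
      intro h0
      rw [Prod.ext_iff] at h0
      simp only [Prod.fst_zero] at h0
      omega
    have h1 := h ((r : ℤ), 0) hx
    have h2 : ((XY.nm ((r : ℤ), 0) : ℕ) : ℝ) = r := by
      rw [XY.nm_cast]
      simp
    rw [h2] at h1
    exact h1
  · have hm := XY.mass_pos_of_lt_bCrit hb hbc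
    have e : corrInf b = XY.C b := funext fun x => XY.corrInf_eq hb.le x
    refine ⟨?_, ?_, XY.xi_lower hb hbc⟩
    · rw [e]; exact XY.summable_C hb hm
    · rw [e]; exact XY.chi_lower hb hbc

end Vale.Agent.Results.P159.UniversalJump
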